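import Vale.Agent.P047.Width

open Finset Vale.Agent.P047

namespace Vale.Agent.Results.P047.CombinedAvg

/-- Equivalence of the weak form with the bound `√(deg f + 1)` and with the strong form for odd
degree or balanced functions; the square-root bound for Boolean functions of two-sided
conical-junta degree at most `d`; and its average-width version. -/
theorem result :
    (Weak ↔ ∀ (ι : Type) [Fintype ι] [DecidableEq ι] (f : Cube ι → ℤˣ),
      lin f ≤ Real.sqrt (deg f + 1)) ∧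
    (Weak → ∀ (ι : Type) [Fintype ι] [DecidableEq ι] (f : Cube ι → ℤˣ),
      Odd (deg f) ∨ coeff f ∅ = 0 → lin f ≤ Real.sqrt (deg f)) ∧
    (∀ (ι : Type) [Fintype ι] [DecidableEq ι] (f : Cube ι → ℤˣ) (d : ℕ),
      (TwoSided d f → lin f ≤ Real.sqrt (d + 1)) ∧
      (TwoSided d f → coeff f ∅ = 0 → lin f ≤ Real.sqrt d) ∧
      (Junta d (fun x => (1 + sgn (f x)) / 2) → lin f ≤ 4 * Real.sqrt (2 * d + 2))) ∧
    (∀ (ι : Type) [Fintype ι] [DecidableEq ι] (f : Cube ι → ℤˣ) (J J' : Type) [Fintype J]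
      [Fintype J'] (c : J → ℝ) (P N : J → Finset ι) (c' : J' → ℝ) (P' N' : J' → Finset ι) (D : ℝ),
      IsDecomp (fun x => (1 + sgn (f x)) / 2) c P N →
      IsDecomp (fun x => (1 - sgn (f x)) / 2) c' P' N' → 13 ≤ D →
      expWidth c P N + expWidth c' P' N' ≤ D → lin f ≤ 2 * Real.sqrt (2 * D)) :=
  ⟨weak_iff, fun hw _ _ _ f hf => weak_odd hw f hf,
    fun _ _ _ _ _ => ⟨two_general, two_balanced, one_sided⟩,
    fun _ _ _ _ _ _ _ _ _ _ _ _ _ _ _ h1 h2 hD hW => avg_sqrt h1 h2 hD hW⟩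

end Vale.Agent.Results.P047.CombinedAvg
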