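import Vale.Agent.P047.Expo

open Finset Vale.Agent.P047

namespace Vale.Agent.Results.P047.Exponents

/-- For every exponent `α > 0`, the bound `M(d) = O(d^α)` is equivalent to `M(d) ≤ (d + 1)^α` and
implies the bound `d^α` for odd degree and for balanced functions (`α = 1/2` compares the two forms
of the Gopalan-Servedio conjecture); and square-root bounds in terms of two-sided conical-junta
degree and of average width. -/
theorem result :
    (∀ α : ℝ, 0 < α →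
      ((∃ C : ℝ, ∀ (ι : Type) [Fintype ι] [DecidableEq ι] (f : Cube ι → ℤˣ),
        lin f ≤ C * (deg f : ℝ) ^ α) ↔
      ∀ (ι : Type) [Fintype ι] [DecidableEq ι] (f : Cube ι → ℤˣ),
        lin f ≤ ((deg f : ℝ) + 1) ^ α)) ∧
    (∀ α : ℝ, 0 < α →
      (∃ C : ℝ, ∀ (ι : Type) [Fintype ι] [DecidableEq ι] (f : Cube ι → ℤˣ),
        lin f ≤ C * (deg f : ℝ) ^ α) →
      ∀ (ι : Type) [Fintype ι] [DecidableEq ι] (f : Cube ι → ℤˣ),
        Odd (deg f) ∨ coeff f ∅ = 0 → lin f ≤ (deg f : ℝ) ^ α) ∧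
    (∀ (ι : Type) [Fintype ι] [DecidableEq ι] (f : Cube ι → ℤˣ) (d : ℕ),
      (TwoSided d f → lin f ≤ Real.sqrt (d + 1)) ∧
      (TwoSided d f → coeff f ∅ = 0 → lin f ≤ Real.sqrt d) ∧
      (Junta d (fun x => (1 + sgn (f x)) / 2) → lin f ≤ 4 * Real.sqrt (2 * d + 2))) ∧
    (∀ (ι : Type) [Fintype ι] [DecidableEq ι] (f : Cube ι → ℤˣ) (J J' : Type) [Fintype J]
      [Fintype J'] (c : J → ℝ) (P N : J → Finset ι) (c' : J' → ℝ) (P' N' : J' → Finset ι) (D : ℝ),
      IsDecomp (fun x => (1 + sgn (f x)) / 2) c P N →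
      IsDecomp (fun x => (1 - sgn (f x)) / 2) c' P' N' → 13 ≤ D →
      expWidth c P N + expWidth c' P' N' ≤ D → lin f ≤ 2 * Real.sqrt (2 * D)) :=
  ⟨fun _ hα => expo_iff hα, fun _ hα hw _ _ _ f hf => expo_odd hα hw f hf,
    fun _ _ _ _ _ => ⟨two_general, two_balanced, one_sided⟩,
    fun _ _ _ _ _ _ _ _ _ _ _ _ _ _ _ h1 h2 hD hW => avg_sqrt h1 h2 hD hW⟩

end Vale.Agent.Results.P047.Exponents
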