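import Vale.Agent.P047.TwoSided

open Finset Vale.Agent.P047

namespace Vale.Agent.Results.P047.TwoSidedJunta

/-- The square-root bound for Boolean functions `f` such that both `(1 + f) / 2` and `(1 - f) / 2`
are nonnegative combinations of conjunctions of width at most `d`. -/
theorem result (ι : Type) [Fintype ι] [DecidableEq ι] (f : Cube ι → ℤˣ) (d : ℕ) :
    (TwoSided d f → lin f ≤ Real.sqrt (d + 1)) ∧
    (TwoSided d f → coeff f ∅ = 0 → lin f ≤ Real.sqrt d) ∧
    (Junta d (fun x => (1 + sgn (f x)) / 2) → lin f ≤ 4 * Real.sqrt (2 * d + 2)) :=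
  ⟨two_general, two_balanced, one_sided⟩

end Vale.Agent.Results.P047.TwoSidedJunta
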