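import Vale.Agent.P047.Star

open Finset Vale.Agent.P047

namespace Vale.Agent.Results.P047.WeakIffStrong

/-- The weaker form `M(d) = O(√d)` of the Gopalan-Servedio conjecture is equivalent to
`M(d) ≤ √(d + 1)` for all `d`, and it implies the strong form for all Boolean functions of odd
degree and for all balanced Boolean functions. -/
theorem result :
    (Weak ↔ ∀ (ι : Type) [Fintype ι] [DecidableEq ι] (f : Cube ι → ℤˣ),
      lin f ≤ Real.sqrt (deg f + 1)) ∧
    (Weak ↔ ((∀ (ι : Type) [Fintype ι] [DecidableEq ι] (f : Cube ι → ℤˣ),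
      Odd (deg f) ∨ coeff f ∅ = 0 → lin f ≤ Real.sqrt (deg f)))) := by
  refine ⟨weak_iff, fun hw ι _ _ f hf => weak_odd hw f hf, ?_⟩
  intro h
  refine ⟨2, ?_⟩
  intro ι _ _ f
  obtain ⟨g, h1, h2, h3, _⟩ := exists_star f
  rcases Nat.eq_zero_or_pos (deg f) with hd | hd
  · rw [lin_eq_zero hd, hd]; simp
  · have hd' : (1 : ℝ) ≤ deg f := by exact_mod_cast hd
    refine (h2.trans (h _ g (Or.inr h1))).trans ?_
    apply Real.sqrt_le_iff.mpr
    refine ⟨by positivity, ?_⟩
    rw [mul_pow, Real.sq_sqrt (by linarith)]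
    have : (deg g : ℝ) ≤ deg f + 1 := by exact_mod_cast h3
    linarith

end Vale.Agent.Results.P047.WeakIffStrong
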